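import Mathlib
import Vale.Agent.P260.Defs

/-!
# P260 climb, module M3b, part 1: an invariant finitely additive probability from Følner sets
-/

namespace Vale.Agent.P260.H307

open Filter Topology

/-- A left-invariant finitely additive probability on the subsets of an amenable group. -/
theorem exists_mean {Γ : Type} [Group Γ] (hF : Folner Γ) :
    ∃ μ : Set Γ → ℝ, (∀ A, 0 ≤ μ A) ∧ μ Set.univ = 1 ∧
      (∀ A B, Disjoint A B → μ (A ∪ B) = μ A + μ B) ∧
      (∀ (g : Γ) (A : Set Γ), μ ((fun x => g * x) ⁻¹' A) = μ A) := by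
  classical
  have hne : ∀ i : Finset Γ × ℕ, ∃ F : Finset Γ, F.Nonempty ∧
      ∀ g ∈ i.1, (((F.image fun x => g * x) \ F).card : ℝ) ≤ (1 / ((i.2 : ℝ) + 1)) * F.card := by
    intro i
    obtain ⟨F, h1, h2⟩ := hF i.1 (1 / ((i.2 : ℝ) + 1)) (by positivity)
    refine ⟨F, h1, fun g hg => ?_⟩
    have := h2 g hg
    convert this
  choose F hFn hFi using hne
  let 𝒰 : Ultrafilter (Finset Γ × ℕ) := Ultrafilter.of atTop
  have hU : (𝒰 : Filter (Finset Γ × ℕ)) ≤ atTop := Ultrafilter.of_le _
  let r : Set Γ → Finset Γ × ℕ → ℝ := fun A i => (((F i).filter (· ∈ A)).card : ℝ) / (F i).card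
  have hpos : ∀ i, (0 : ℝ) < (F i).card := fun i => by
    exact_mod_cast Finset.card_pos.2 (hFn i)
  have hr0 : ∀ A i, 0 ≤ r A i := fun A i => by positivity
  have hr1 : ∀ A i, r A i ≤ 1 := fun A i => by
    have : (((F i).filter (· ∈ A)).card : ℝ) ≤ (F i).card := by
      exact_mod_cast Finset.card_filter_le _ _
    exact (div_le_one (hpos i)).2 this
  have hlim : ∀ A, ∃ l, Tendsto (r A) 𝒰 (𝓝 l) := by
    intro A
    obtain ⟨l, _, hl⟩ := (isCompact_Icc (a := (0 : ℝ)) (b := 1)).ultrafilter_le_nhds
      (𝒰.map (r A)) (by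
        rw [le_principal_iff]
        exact Filter.mem_map.2 (Filter.univ_mem' fun i => ⟨hr0 A i, hr1 A i⟩))
    exact ⟨l, hl⟩
  choose μ hμ using hlim
  have hinv : ∀ (g : Γ) (A : Set Γ), μ ((fun x => g * x) ⁻¹' A) ≤ μ A := by
    intro g A
    have h1 : Tendsto (fun i : Finset Γ × ℕ => r A i + 1 / ((i.2 : ℝ) + 1)) 𝒰 (𝓝 (μ A + 0)) := by
      refine (hμ A).add ?_
      have h2 : Tendsto (fun i : Finset Γ × ℕ => 1 / ((i.2 : ℝ) + 1)) atTop (𝓝 0) := by
        rw [← prod_atTop_atTop_eq]
        exact tendsto_one_div_add_atTop_nhds_zero_nat.comp tendsto_snd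
      exact h2.mono_left hU
    rw [add_zero] at h1
    refine le_of_tendsto_of_tendsto (hμ _) h1 ?_
    have h3 : ∀ᶠ i : Finset Γ × ℕ in atTop, (({g} : Finset Γ), 0) ≤ i := eventually_ge_atTop _
    refine Filter.Eventually.mono (Filter.Eventually.filter_mono hU h3) fun i hi => ?_
    have hg : g ∈ i.1 := by
      have := hi.1
      exact this (Finset.mem_singleton_self g)
    have h4 := hFi i g hg
    -- the map `x ↦ g x`
    have h5 : ((F i).filter (· ∈ (fun x => g * x) ⁻¹' A)).card ≤
        ((F i).filter (· ∈ A)).card + (((F i).image fun x => g * x) \ F i).card := by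
      rw [← Finset.card_image_of_injective _ (mul_right_injective g)]
      refine (Finset.card_le_card ?_).trans (Finset.card_union_le _ _)
      intro y hy
      obtain ⟨x, hx, rfl⟩ := Finset.mem_image.1 hy
      rw [Finset.mem_filter] at hx
      by_cases hF' : g * x ∈ F i
      · exact Finset.mem_union_left _ (Finset.mem_filter.2 ⟨hF', hx.2⟩)
      · exact Finset.mem_union_right _
          (Finset.mem_sdiff.2 ⟨Finset.mem_image_of_mem _ hx.1, hF'⟩)
    change (_ : ℝ) / _ ≤ _ / _ + _
    rw [div_add' _ _ _ (hpos i).ne']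
    gcongr
    have h6 : (((F i).filter (· ∈ (fun x => g * x) ⁻¹' A)).card : ℝ) ≤
        ((F i).filter (· ∈ A)).card + (((F i).image fun x => g * x) \ F i).card := by
      exact_mod_cast h5
    exact h6.trans (by gcongr)
  refine ⟨μ, fun A => ge_of_tendsto' (hμ A) (hr0 A), ?_, ?_, ?_⟩
  · refine tendsto_nhds_unique (hμ _) ?_
    have : r Set.univ = fun _ => 1 := by
      funext i
      simp only [r, Set.mem_univ, Finset.filter_true]
      exact div_self (hpos i).ne'
    rw [this]
    exact tendsto_const_nhds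
  · intro A B hAB
    refine tendsto_nhds_unique (hμ _) ?_
    have : r (A ∪ B) = fun i => r A i + r B i := by
      funext i
      simp only [r]
      rw [← add_div, ← Nat.cast_add, ← Finset.card_union_of_disjoint]
      · congr 3
        ext x
        simp only [Finset.mem_filter, Finset.mem_union, Set.mem_union]
        tauto
      · rw [Finset.disjoint_left]
        intro x hx hx'
        exact Set.disjoint_left.1 hAB (Finset.mem_filter.1 hx).2 (Finset.mem_filter.1 hx').2
    rw [this]
    exact (hμ A).add (hμ B)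
  · intro g A
    refine le_antisymm (hinv g A) ?_
    have := hinv g⁻¹ ((fun x => g * x) ⁻¹' A)
    have e : (fun x => g⁻¹ * x) ⁻¹' ((fun x => g * x) ⁻¹' A) = A := by
      ext x; simp
    rwa [e] at this

end Vale.Agent.P260.H307
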