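import Mathlib
import Vale.Agent.P260.H66.Wall
import Vale.Agent.P260.H856.O
import Vale.Agent.P260.H307.Mean

/-!
# P260 climb, module M3: Theorem C of Bieri-Neumann-Strebel for amenable groups

A wall at level `t` is a connected component of the band `{|θ - t| ≤ R}` (H66/Wall.lean), named by
an edge of it that crosses the level `t` upwards.  The steps are W3 - W5 of H493/Notes.lean.
-/

namespace Vale.Agent.P260.H307

open Vale.Agent.P260.H493 Vale.Agent.P260.H66

section

variable {Γ : Type} [Group Γ] {S : Finset Γ} {θ : Γ → ℝ}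

/-- `e = (x, s)` is an edge that crosses the level `t` upwards. -/
def UpE (S : Finset Γ) (θ : Γ → ℝ) (t : ℝ) (e : Γ × Γ) : Prop :=
  e.2 ∈ S ∧ θ e.1 < t ∧ t ≤ θ (e.1 * e.2)

/-- two edges that cross the level `t` upwards, in the same component of the band -/
def Wl (S : Finset Γ) (θ : Γ → ℝ) (R t : ℝ) (e e' : Γ × Γ) : Prop :=
  UpE S θ t e ∧ UpE S θ t e' ∧ Cn S θ R t e.1 e'.1

/-- Half-spaces of the walls. -/
structure WS (S : Finset Γ) (θ : Γ → ℝ) (R : ℝ) where
  /-- `H t e` is the half-space above the wall through `e` at level `t` (used for `UpE S θ t e`) -/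
  H : ℝ → Γ × Γ → Set Γ
  K : ℝ
  K_nonneg : 0 ≤ K
  refl : ∀ t e, UpE S θ t e → Wl S θ R t e e
  /-- the half-space is entered exactly through the edges of its wall -/
  mem_iff : ∀ t e, UpE S θ t e → ∀ x, ∀ s ∈ S, (x ∉ H t e ∧ x * s ∈ H t e) ↔ Wl S θ R t e (x, s)
  /-- translation -/
  smul : ∀ t e, UpE S θ t e → ∀ g x, g * x ∈ H (t + θ g) (g * e.1, e.2) ↔ x ∈ H t e
  /-- different walls, at the same level or at levels of distance `> K`, are nested -/
  nest : ∀ t t' e e', UpE S θ t e → UpE S θ t' e' → (t = t' ∧ ¬ Wl S θ R t e e') ∨ K < |t - t'| →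
    (e'.1 * e'.2 ∈ H t e ↔ e'.1 ∈ H t e) ∧ (e.1 * e.2 ∈ H t' e' ↔ e.1 ∈ H t' e') ∧
    ∀ x, (x ∈ H t e ↔ e'.1 ∈ H t e) ∨ (x ∈ H t' e' ↔ e.1 ∈ H t' e')
  /-- edges of one wall are joined by a path near the level -/
  conn : ∀ t e e', Wl S θ R t e e' → Conn S (fun y => |θ y - t| ≤ K) e.1 e'.1

theorem ch_one (hθ : IsChar θ) : θ 1 = 0 := H856.IsChar.one hθ

theorem ch_inv (hθ : IsChar θ) (g : Γ) : θ g⁻¹ = -θ g := by
  have := hθ g g⁻¹
  rw [mul_inv_cancel, ch_one hθ] at this
  linarith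

theorem ch_zpow (hθ : IsChar θ) (g : Γ) (n : ℤ) : θ (g ^ n) = n * θ g := by
  cases n with
  | ofNat n => simp [H856.IsChar.pow hθ]
  | negSucc n =>
    rw [zpow_negSucc, ch_inv hθ, H856.IsChar.pow hθ]
    push_cast
    ring

theorem ch_neg (hθ : IsChar θ) : IsChar (-θ) := fun a b => by
  simp only [Pi.neg_apply, hθ a b]; ring

theorem exists_pos (hS : GenSet S) (hθ : IsChar θ) (h0 : θ ≠ 0) : ∃ h ∈ S, 0 < θ h := by
  by_contra hc
  push Not at hc
  apply h0
  have h1 : ∀ s ∈ S, θ s = 0 := fun s hs => by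
    have a := hc s hs
    have b := hc _ (hS.inv s hs)
    rw [ch_inv hθ] at b
    linarith
  funext g
  have hg : g ∈ Subgroup.closure (S : Set Γ) := by rw [hS.gen]; trivial
  induction hg using Subgroup.closure_induction with
  | mem x hx => exact h1 x (by simpa using hx)
  | one => exact ch_one hθ
  | mul x y _ _ hx hy => rw [hθ, hx, hy]; simp
  | inv x _ hx => rw [ch_inv hθ, hx]; simp

variable {t : ℝ} {e e' : Γ × Γ}

variable {R : ℝ}

theorem wall_up (h : Wl S θ R t e e') : UpE S θ t e' := h.2.1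

theorem wall_symm (hS : GenSet S) (h : Wl S θ R t e e') : Wl S θ R t e' e :=
  ⟨h.2.1, h.1, conn_symm hS h.2.2⟩

theorem UpE.band (hθ : IsChar θ) {ρ : ℝ} (hρ : Rho S θ ρ) (hR : ρ ≤ R) (he : UpE S θ t e) :
    Band θ R t e.1 := by
  obtain ⟨h1, h2, h3⟩ := he
  have h4 := (abs_le.1 (hρ.2 _ h1)).2
  rw [hθ] at h3
  unfold Band
  rw [abs_le]
  constructor <;> linarith

theorem UpE.smul (hθ : IsChar θ) (g : Γ) (he : UpE S θ t e) :
    UpE S θ (t + θ g) (g * e.1, e.2) := by
  obtain ⟨h1, h2, h3⟩ := he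
  refine ⟨h1, ?_, ?_⟩
  · change θ (g * e.1) < _
    rw [hθ]; linarith
  · change _ ≤ θ (g * e.1 * e.2)
    rw [mul_assoc, hθ]; linarith

/-- the half-spaces of the band components form a wall system -/
theorem exists_ws (hS : GenSet S) (hθ : IsChar θ) {N : ℕ} (hF : FP2 S N) :
    ∃ R, Nonempty (WS S θ R) := by
  classical
  obtain ⟨c, hc⟩ := H856.exists_lower S (fun s => -|θ s|)
  obtain ⟨ρ, hρ⟩ : ∃ ρ, Rho S θ ρ := ⟨max 0 (-c), le_max_left _ _, fun s hs =>
    le_trans (by linarith [hc s hs]) (le_max_right _ _)⟩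
  have hρ0 := hρ.1
  have hN0 : (0 : ℝ) ≤ N := Nat.cast_nonneg _
  have hR : ρ ≤ 3 * (N + 1) * ρ := by nlinarith
  have hR0 : 0 ≤ 3 * ((N : ℝ) + 1) * ρ := hρ0.trans hR
  refine ⟨3 * (N + 1) * ρ, ?_⟩
  have hex : ∀ t e, ∃ H, UpE S θ t e → IsH S θ (3 * (N + 1) * ρ) t e.1 H := by
    intro t e
    by_cases he : UpE S θ t e
    · obtain ⟨H, hH⟩ := exists_isH hS hF hθ hρ le_rfl t (he.band hθ hρ hR)
      exact ⟨H, fun _ => hH⟩
    · exact ⟨∅, fun h => absurd h he⟩
  choose H hH using hex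
  refine ⟨{ H := H, K := 2 * (3 * (N + 1) * ρ), K_nonneg := by positivity,
            refl := fun t e he => ⟨he, he, conn_refl (he.band hθ hρ hR)⟩, mem_iff := ?_, smul := ?_, nest := ?_, conn := ?_ }⟩
  · intro t e he x s hs
    have h := hH t e he
    constructor
    · rintro ⟨h1, h2⟩
      by_cases hK : Cn S θ (3 * (N + 1) * ρ) t e.1 x
      · rw [h.self x hK, not_le] at h1
        rw [h.next x hK s hs] at h2
        exact ⟨he, ⟨hs, h1, h2⟩, hK⟩
      · exact absurd ((h.out x hK s hs).1 h2) h1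
    · rintro ⟨-, ⟨-, h1, h2⟩, hK⟩
      exact ⟨fun hc => absurd ((h.self x hK).1 hc) (not_le.2 h1), (h.next x hK s hs).2 h2⟩
  · intro t e he g x
    have h1 := (hH t e he).translate hθ g
    have h2 := hH _ _ (he.smul hθ g)
    have := h1.unique hS ((he.smul hθ g).band hθ hρ hR) h2
    rw [← this]
    simp
  · intro t t' e e' he he' hor
    have hb := he.band hθ hρ hR
    have hb' := he'.band hθ hρ hR
    have hd : ∀ x, Cn S θ (3 * (N + 1) * ρ) t e.1 x → Cn S θ (3 * (N + 1) * ρ) t' e'.1 x →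
        False := by
      intro x h1 h2
      rcases hor with ⟨rfl, hw⟩ | hK
      · exact hw ⟨he, he', conn_trans h1 (conn_symm hS h2)⟩
      · have b1 : Band θ _ t x := conn_right h1
        have b2 : Band θ _ t' x := conn_right h2
        unfold Band at b1 b2
        have : |t - t'| ≤ |θ x - t| + |θ x - t'| := by
          rw [abs_sub_comm (θ x) t]
          exact abs_sub_le _ _ _
        linarith
    refine ⟨?_, ?_, ?_⟩
    · exact (hH t e he).out _ (fun h1 => hd _ h1 (conn_refl hb')) _ he'.1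
    · exact (hH t' e' he').out _ (fun h1 => hd _ (conn_refl hb) h1) _ he.1
    · exact H66.nest hS (hH t e he) (hH t' e' he') hd
  · intro t e e' h
    exact conn_mono (fun y hy => le_trans hy (by linarith)) h.2.2

variable (W : WS S θ R)

/-- a half-space is entered only through its level, upwards -/
theorem enter (he : UpE S θ t e) {x s : Γ} (hs : s ∈ S) (h1 : x ∉ W.H t e)
    (h2 : x * s ∈ W.H t e) : θ x < t ∧ t ≤ θ (x * s) :=
  (wall_up ((W.mem_iff t e he x s hs).1 ⟨h1, h2⟩)).2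

/-- a half-space is left only through its level, downwards -/
theorem leave (hS : GenSet S) (he : UpE S θ t e) {x s : Γ} (hs : s ∈ S) (h1 : x ∈ W.H t e)
    (h2 : x * s ∉ W.H t e) : θ (x * s) < t ∧ t ≤ θ x := by
  have := enter W he (hS.inv s hs) h2 (by rwa [mul_inv_cancel_right])
  rwa [mul_inv_cancel_right] at this

end

/-- The data fixed in this file. -/
structure Dat {Γ : Type} [Group Γ] (S : Finset Γ) (θ : Γ → ℝ) (h : Γ) : Prop where
  gs : GenSet S
  ch : IsChar θ
  mem : h ∈ S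
  pos : 0 < θ h

section

variable {Γ : Type} [Group Γ] {S : Finset Γ} {R : ℝ} {θ : Γ → ℝ} {h : Γ}

/-- the index of the edge of the line `y h^n` that crosses the level `t` -/
noncomputable def idx (θ : Γ → ℝ) (h y : Γ) (t : ℝ) : ℤ := ⌈(t - θ y) / θ h⌉ - 1

/-- the edge of the line `y h^n` that crosses the level `t` -/
noncomputable def ed (θ : Γ → ℝ) (h y : Γ) (t : ℝ) : Γ × Γ := (y * h ^ idx θ h y t, h)

variable (D : Dat S θ h)
include D

theorem th_line (y : Γ) (n : ℤ) : θ (y * h ^ n) = θ y + n * θ h := by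
  rw [D.ch, ch_zpow D.ch]

theorem idx_lt (y : Γ) (t : ℝ) : θ y + idx θ h y t * θ h < t := by
  have h1 : (idx θ h y t : ℝ) < (t - θ y) / θ h := by
    unfold idx
    push_cast
    linarith [Int.ceil_lt_add_one ((t - θ y) / θ h)]
  rw [lt_div_iff₀ D.pos] at h1
  linarith

theorem le_idx (y : Γ) (t : ℝ) : t ≤ θ y + (idx θ h y t + 1) * θ h := by
  have h1 : (t - θ y) / θ h ≤ (idx θ h y t : ℝ) + 1 := by
    unfold idx
    push_cast
    linarith [Int.le_ceil ((t - θ y) / θ h)]
  rw [div_le_iff₀ D.pos] at h1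
  linarith

theorem idx_uniq {y : Γ} {t : ℝ} {m : ℤ} (h1 : θ y + m * θ h < t)
    (h2 : t ≤ θ y + (m + 1) * θ h) : m = idx θ h y t := by
  have a := idx_lt D y t
  have b := le_idx D y t
  have c := D.pos
  apply le_antisymm
  · by_contra hc
    push Not at hc
    have : (idx θ h y t : ℝ) + 1 ≤ m := by exact_mod_cast hc
    nlinarith
  · by_contra hc
    push Not at hc
    have : (m : ℝ) + 1 ≤ idx θ h y t := by exact_mod_cast hc
    nlinarith

theorem ed_up (y : Γ) (t : ℝ) : UpE S θ t (ed θ h y t) := by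
  refine ⟨D.mem, ?_, ?_⟩
  · change θ (y * h ^ idx θ h y t) < t
    rw [th_line D]
    exact idx_lt D y t
  · change t ≤ θ (y * h ^ idx θ h y t * h)
    rw [D.ch, th_line D]
    linarith [le_idx D y t]

theorem ed_of_up {y : Γ} {t : ℝ} {m : ℤ} (hu : UpE S θ t (y * h ^ m, h)) :
    (y * h ^ m, h) = ed θ h y t := by
  obtain ⟨_, h1, h2⟩ := hu
  change θ (y * h ^ m) < t at h1
  change t ≤ θ (y * h ^ m * h) at h2
  rw [th_line D] at h1
  rw [D.ch, th_line D] at h2
  have : m = idx θ h y t := idx_uniq D h1 (by linarith)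
  rw [this]
  rfl

variable (W : WS S θ R) {t : ℝ} {e : Γ × Γ}

theorem step_up (he : UpE S θ t e) {x : Γ} (hx : x ∈ W.H t e) : x * h ∈ W.H t e := by
  by_contra hc
  have := leave W D.gs he D.mem hx hc
  rw [D.ch] at this
  linarith [D.pos]

theorem mono_line (he : UpE S θ t e) {y : Γ} {m m' : ℤ} (hm : m ≤ m')
    (hx : y * h ^ m ∈ W.H t e) : y * h ^ m' ∈ W.H t e := by
  obtain ⟨n, rfl⟩ := Int.le.dest hm
  clear hm
  induction n with
  | zero => simpa using hx
  | succ n ih =>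
    have := step_up D W he ih
    rw [mul_assoc, ← zpow_add_one] at this
    rw [show m + ((n + 1 : ℕ) : ℤ) = m + n + 1 by push_cast; ring]
    exact this

theorem const_line (he : UpE S θ t e) {y : Γ} (hw : ¬ Wl S θ R t e (ed θ h y t)) (m m' : ℤ) :
    y * h ^ m ∈ W.H t e ↔ y * h ^ m' ∈ W.H t e := by
  have key : ∀ m : ℤ, y * h ^ m ∈ W.H t e ↔ y * h ^ (m + 1) ∈ W.H t e := by
    intro m
    constructor
    · exact mono_line D W he (by omega)
    · intro h1
      by_contra h2
      rw [zpow_add_one, ← mul_assoc] at h1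
      have h3 := (W.mem_iff t e he _ h D.mem).1 ⟨h2, h1⟩
      rw [ed_of_up D (wall_up h3)] at h3
      exact hw h3
  have k2 : ∀ (m : ℤ) (n : ℕ), y * h ^ m ∈ W.H t e ↔ y * h ^ (m + n) ∈ W.H t e := by
    intro m n
    induction n with
    | zero => simp
    | succ n ih =>
      rw [ih, key (m + n)]
      push_cast
      rw [add_assoc]
  rcases le_total m m' with hm | hm
  · obtain ⟨n, rfl⟩ := Int.le.dest hm
    exact k2 m n
  · obtain ⟨n, rfl⟩ := Int.le.dest hm
    exact (k2 m' n).symm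

/-- The half-space above the wall at level `t` that crosses the line of `y`. -/
def P (h y : Γ) (t : ℝ) : Set Γ := W.H t (ed θ h y t)

theorem mem_line (y : Γ) (t : ℝ) (m : ℤ) : y * h ^ m ∈ P W h y t ↔ t ≤ θ y + m * θ h := by
  have he := ed_up D y t
  have h1 := (W.mem_iff t _ he (y * h ^ idx θ h y t) h D.mem).2 (W.refl _ _ he)
  have a := idx_lt D y t
  have b := le_idx D y t
  have c := D.pos
  constructor
  · intro hm
    have : idx θ h y t < m := by
      by_contra hc
      push Not at hc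
      exact h1.1 (mono_line D W he hc hm)
    have : (idx θ h y t : ℝ) + 1 ≤ m := by exact_mod_cast this
    nlinarith
  · intro hm
    have : idx θ h y t < m := by
      by_contra hc
      push Not at hc
      have : (m : ℝ) ≤ idx θ h y t := by exact_mod_cast hc
      nlinarith
    refine mono_line D W he (m := idx θ h y t + 1) (by omega) ?_
    rw [zpow_add_one, ← mul_assoc]
    exact h1.2

theorem mem_self (y : Γ) (t : ℝ) : y ∈ P W h y t ↔ t ≤ θ y := by
  have := mem_line D W y t 0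
  simpa using this

omit D in
theorem P_smul (hθ : IsChar θ) (g y : Γ) (t : ℝ) (he : UpE S θ t (ed θ h y t)) :
    (fun x => g * x) ⁻¹' P W h (g * y) (t + θ g) = P W h y t := by
  have : ed θ h (g * y) (t + θ g) = (g * (ed θ h y t).1, (ed θ h y t).2) := by
    have h1 : t + θ g - θ (g * y) = t - θ y := by rw [hθ]; ring
    unfold ed idx
    rw [h1, mul_assoc]
  ext x
  unfold P
  rw [this]
  exact W.smul t _ he g x

theorem ed_line (y : Γ) (t : ℝ) (k : ℤ) : ed θ h (y * h ^ k) t = ed θ h y t := by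
  have h1 : idx θ h y t - k = idx θ h (y * h ^ k) t := by
    apply idx_uniq D
    · rw [th_line D]
      push_cast
      linarith [idx_lt D y t]
    · rw [th_line D]
      push_cast
      linarith [le_idx D y t]
  unfold ed
  rw [← h1, mul_assoc, ← zpow_add, add_sub_cancel]

omit D in
theorem ed_snd (y : Γ) (t : ℝ) :
    (ed θ h y t).1 * (ed θ h y t).2 = y * h ^ (idx θ h y t + 1) := by
  unfold ed
  rw [zpow_add_one, mul_assoc]

theorem nest1 {t t' : ℝ} (ht : t + W.K < t') : P W h 1 t' ⊆ P W h 1 t := by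
  have hK := W.K_nonneg
  obtain ⟨h1, -, h3⟩ := W.nest t t' _ _ (ed_up D 1 t) (ed_up D 1 t')
    (Or.inr (by rw [abs_sub_comm, abs_of_pos (by linarith)]; linarith))
  have a : (ed θ h 1 t').1 ∈ W.H t (ed θ h 1 t) := by
    rw [← h1, ed_snd]
    refine (mem_line D W 1 t _).2 ?_
    have := le_idx D 1 t'
    push_cast
    linarith
  have b : (ed θ h 1 t).1 ∉ W.H t' (ed θ h 1 t') := by
    intro hc
    have := (mem_line D W 1 t' _).1 hc
    linarith [idx_lt D 1 t]
  intro x hx
  rcases h3 x with h4 | h4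
  · exact h4.2 a
  · exact absurd (h4.1 hx) b

omit D in
/-- `s ∈ S` lies in a half-space iff `1` does, if the level is not between `0` and `θ s`:
the upper case -/
theorem not_mem_of_lt {s : Γ} (hs : s ∈ S) (he : UpE S θ t e) (h1 : (1 : Γ) ∉ W.H t e)
    (ht : θ s < t) : s ∉ W.H t e := by
  intro hc
  have := enter W he hs h1 (by rwa [one_mul])
  rw [one_mul] at this
  linarith [this.2]

theorem one_not_mem_of_lt {s : Γ} (hs : s ∈ S) (he : UpE S θ t e) (h1 : s ∉ W.H t e)
    (ht : 0 < t) : (1 : Γ) ∉ W.H t e := by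
  intro hc
  have := enter W he (D.gs.inv s hs) h1 (by rwa [mul_inv_cancel])
  rw [mul_inv_cancel, ch_one D.ch] at this
  linarith [this.2]

theorem mem_of_le {s : Γ} (hs : s ∈ S) (he : UpE S θ t e) (h1 : (1 : Γ) ∈ W.H t e)
    (ht : t ≤ θ s) : s ∈ W.H t e := by
  by_contra hc
  have := leave W D.gs he hs h1 (by rwa [one_mul])
  rw [one_mul] at this
  linarith [this.1]

theorem one_mem_of_le {s : Γ} (hs : s ∈ S) (he : UpE S θ t e) (h1 : s ∈ W.H t e)
    (ht : t ≤ 0) : (1 : Γ) ∈ W.H t e := by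
  by_contra hc
  have := leave W D.gs he (D.gs.inv s hs) h1 (by rwa [mul_inv_cancel])
  rw [mul_inv_cancel, ch_one D.ch] at this
  linarith [this.1]

/-- W4, upper half: the two half-spaces are disjoint -/
theorem disj_up {s : Γ} (hs : s ∈ S) (h0 : 0 < t) (h1 : θ s < t)
    (hw : ¬ Wl S θ R t (ed θ h 1 t) (ed θ h s t)) :
    Disjoint (P W h 1 t) (P W h s t) := by
  have e1 := ed_up D 1 t
  have e2 := ed_up D s t
  obtain ⟨-, -, h3⟩ := W.nest t t _ _ e1 e2 (Or.inl ⟨rfl, hw⟩)
  have o1 : (1 : Γ) ∉ P W h 1 t := by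
    rw [mem_self D W, ch_one D.ch]; linarith
  have s1 : s ∉ P W h 1 t := not_mem_of_lt W hs e1 o1 h1
  have s2 : s ∉ P W h s t := by
    rw [mem_self D W]; linarith
  have o2 : (1 : Γ) ∉ P W h s t := one_not_mem_of_lt D W hs e2 s2 h0
  have a : (ed θ h s t).1 ∉ W.H t (ed θ h 1 t) := by
    intro hc
    have := (const_line D W e1 hw (idx θ h s t) 0).1 hc
    rw [zpow_zero, mul_one] at this
    exact s1 this
  have b : (ed θ h 1 t).1 ∉ W.H t (ed θ h s t) := by
    intro hc
    have := (const_line D W e2 (fun hc => hw (wall_symm D.gs hc)) (idx θ h 1 t) 0).1 hc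
    rw [zpow_zero, mul_one] at this
    exact o2 this
  rw [Set.disjoint_left]
  intro x hx hx'
  rcases h3 x with h4 | h4
  · exact a (h4.1 hx)
  · exact b (h4.1 hx')

/-- W4, upper half: both are contained in a lower half-space -/
theorem sub_up {s : Γ} (hs : s ∈ S) (h0 : 0 < t) (h1 : θ s < t) {t₀ : ℝ} (ht : t₀ + W.K < t)
    (h2 : t₀ ≤ 0) (h3 : t₀ ≤ θ s) : P W h s t ⊆ P W h 1 t₀ := by
  have hK := W.K_nonneg
  have e1 := ed_up D 1 t₀
  have e2 := ed_up D s t
  obtain ⟨h4, h5, h6⟩ := W.nest t₀ t _ _ e1 e2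
    (Or.inr (by rw [abs_sub_comm, abs_of_pos (by linarith)]; linarith))
  have o1 : (1 : Γ) ∈ P W h 1 t₀ := by
    rw [mem_self D W, ch_one D.ch]; exact h2
  have s1 : s ∈ P W h 1 t₀ := mem_of_le D W hs e1 o1 h3
  have s2 : s ∉ P W h s t := by
    rw [mem_self D W]; linarith
  have o2 : (1 : Γ) ∉ P W h s t := one_not_mem_of_lt D W hs e2 s2 h0
  have a : (ed θ h s t).1 ∈ W.H t₀ (ed θ h 1 t₀) := by
    rw [← h4, ed_snd]
    refine mono_line D W e1 (m := 0) ?_ (by rwa [zpow_zero, mul_one])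
    by_contra hc
    push Not at hc
    have h7 : (idx θ h s t : ℝ) + 1 ≤ 0 := by exact_mod_cast (by omega : idx θ h s t + 1 ≤ 0)
    have h8 := le_idx D s t
    nlinarith [D.pos]
  have b : (ed θ h 1 t₀).1 ∉ W.H t (ed θ h s t) := by
    intro hc
    have := mono_line D W e2 (y := 1) (m := idx θ h 1 t₀) (m' := 0) ?_ hc
    · rw [zpow_zero, mul_one] at this
      exact o2 this
    · by_contra hc
      push Not at hc
      have h7 : (1 : ℝ) ≤ idx θ h 1 t₀ := by exact_mod_cast hc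
      have h8 := idx_lt D 1 t₀
      rw [ch_one D.ch] at h8
      nlinarith [D.pos]
  intro x hx
  rcases h6 x with h7 | h7
  · exact h7.2 a
  · exact absurd (h7.1 hx) b

/-- W4, lower half: the complements are disjoint -/
theorem disj_down {s : Γ} (hs : s ∈ S) (h0 : t ≤ 0) (h1 : t ≤ θ s)
    (hw : ¬ Wl S θ R t (ed θ h 1 t) (ed θ h s t)) :
    Disjoint (P W h 1 t)ᶜ (P W h s t)ᶜ := by
  have e1 := ed_up D 1 t
  have e2 := ed_up D s t
  obtain ⟨-, -, h3⟩ := W.nest t t _ _ e1 e2 (Or.inl ⟨rfl, hw⟩)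
  have o1 : (1 : Γ) ∈ P W h 1 t := by
    rw [mem_self D W, ch_one D.ch]; linarith
  have s1 : s ∈ P W h 1 t := mem_of_le D W hs e1 o1 h1
  have s2 : s ∈ P W h s t := by
    rw [mem_self D W]; linarith
  have o2 : (1 : Γ) ∈ P W h s t := one_mem_of_le D W hs e2 s2 h0
  have a : (ed θ h s t).1 ∈ W.H t (ed θ h 1 t) := by
    refine (const_line D W e1 hw (idx θ h s t) 0).2 ?_
    rwa [zpow_zero, mul_one]
  have b : (ed θ h 1 t).1 ∈ W.H t (ed θ h s t) := by
    refine (const_line D W e2 (fun hc => hw (wall_symm D.gs hc)) (idx θ h 1 t) 0).2 ?_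
    rwa [zpow_zero, mul_one]
  rw [Set.disjoint_left]
  intro x hx hx'
  rcases h3 x with h4 | h4
  · exact hx (h4.2 a)
  · exact hx' (h4.2 b)

/-- W4, lower half: both half-spaces contain a higher half-space -/
theorem sub_down {s : Γ} (hs : s ∈ S) (h0 : t ≤ 0) (h1 : t ≤ θ s) {t₁ : ℝ} (ht : t + W.K < t₁)
    (h2 : 0 < t₁) (h3 : θ s < t₁) : P W h 1 t₁ ⊆ P W h s t := by
  have hK := W.K_nonneg
  have e1 := ed_up D 1 t₁
  have e2 := ed_up D s t
  obtain ⟨h4, h5, h6⟩ := W.nest t₁ t _ _ e1 e2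
    (Or.inr (by rw [abs_of_pos (by linarith)]; linarith))
  have o1 : (1 : Γ) ∉ P W h 1 t₁ := by
    rw [mem_self D W, ch_one D.ch]; linarith
  have s1 : s ∉ P W h 1 t₁ := not_mem_of_lt W hs e1 o1 h3
  have s2 : s ∈ P W h s t := by
    rw [mem_self D W]; linarith
  have o2 : (1 : Γ) ∈ P W h s t := one_mem_of_le D W hs e2 s2 h0
  have a : (ed θ h s t).1 ∉ W.H t₁ (ed θ h 1 t₁) := by
    intro hc
    have := mono_line D W e1 (y := s) (m := idx θ h s t) (m' := 0) ?_ hc
    · rw [zpow_zero, mul_one] at this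
      exact s1 this
    · by_contra hc
      push Not at hc
      have h7 : (1 : ℝ) ≤ idx θ h s t := by exact_mod_cast hc
      have h8 := idx_lt D s t
      nlinarith [D.pos]
  have b : (ed θ h 1 t₁).1 ∈ W.H t (ed θ h s t) := by
    refine mono_line D W e2 (m := 0) ?_ (by rwa [zpow_zero, mul_one])
    by_contra hc
    push Not at hc
    have h7 : (idx θ h 1 t₁ : ℝ) + 1 ≤ 0 := by exact_mod_cast (by omega : idx θ h 1 t₁ + 1 ≤ 0)
    have h8 := le_idx D 1 t₁
    rw [ch_one D.ch] at h8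
    nlinarith [D.pos]
  intro x hx
  rcases h6 x with h7 | h7
  · exact absurd (h7.1 hx) a
  · exact h7.2 b

/-- walking along the line `y h^n` -/
theorem line_conn (y : Γ) (m m' : ℤ) :
    Conn S (fun v => min (θ (y * h ^ m)) (θ (y * h ^ m')) ≤ θ v ∧
      θ v ≤ max (θ (y * h ^ m)) (θ (y * h ^ m'))) (y * h ^ m) (y * h ^ m') := by
  have hp := D.pos
  have k : ∀ (n : ℕ) (m : ℤ), Conn S (fun v => θ (y * h ^ m) ≤ θ v ∧
      θ v ≤ θ (y * h ^ (m + n))) (y * h ^ m) (y * h ^ (m + n)) := by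
    intro n
    induction n with
    | zero =>
      intro m
      simp only [Nat.cast_zero, add_zero]
      exact ⟨Relation.ReflTransGen.refl, le_rfl, le_rfl⟩
    | succ n ih =>
      intro m
      have h1 : θ (y * h ^ (m + n)) ≤ θ (y * h ^ (m + (n + 1 : ℕ))) := by
        simp only [th_line D]
        push_cast
        nlinarith
      have h0 : θ (y * h ^ m) ≤ θ (y * h ^ (m + n)) := by
        simp only [th_line D]
        push_cast
        have : (0 : ℝ) ≤ n := by positivity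
        nlinarith
      have := H856.Conn.mono (Q' := fun v => θ (y * h ^ m) ≤ θ v ∧
        θ v ≤ θ (y * h ^ (m + (n + 1 : ℕ)))) (fun v hv => ⟨hv.1, hv.2.trans h1⟩) (ih m)
      refine ⟨this.1.tail ⟨⟨h, D.mem, ?_⟩, h0.trans h1, le_rfl⟩, this.2⟩
      rw [mul_assoc, ← zpow_add_one]
      congr 2
      push_cast
      ring
  have k' : ∀ (n : ℕ) (m : ℤ), Conn S (fun v => θ (y * h ^ m) ≤ θ v ∧
      θ v ≤ θ (y * h ^ (m + n))) (y * h ^ (m + n)) (y * h ^ m) := by
    intro n
    induction n with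
    | zero =>
      intro m
      simp only [Nat.cast_zero, add_zero]
      exact ⟨Relation.ReflTransGen.refl, le_rfl, le_rfl⟩
    | succ n ih =>
      intro m
      have h1 : θ (y * h ^ (m + n)) ≤ θ (y * h ^ (m + (n + 1 : ℕ))) := by
        simp only [th_line D]
        push_cast
        nlinarith
      have h0 : θ (y * h ^ m) ≤ θ (y * h ^ (m + n)) := by
        simp only [th_line D]
        push_cast
        have : (0 : ℝ) ≤ n := by positivity
        nlinarith
      have := H856.Conn.mono (Q' := fun v => θ (y * h ^ m) ≤ θ v ∧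
        θ v ≤ θ (y * h ^ (m + (n + 1 : ℕ)))) (fun v hv => ⟨hv.1, hv.2.trans h1⟩) (ih m)
      refine ⟨Relation.ReflTransGen.head ⟨⟨h⁻¹, D.gs.inv h D.mem, ?_⟩, h0, h1⟩ this.1,
        h0.trans h1, le_rfl⟩
      rw [mul_assoc, ← zpow_sub_one]
      congr 2
      push_cast
      ring
  rcases le_total m m' with hm | hm
  · obtain ⟨n, rfl⟩ := Int.le.dest hm
    exact H856.Conn.mono (fun v hv => ⟨(min_le_left _ _).trans hv.1, hv.2.trans (le_max_right _ _)⟩)
      (k n m)
  · obtain ⟨n, rfl⟩ := Int.le.dest hm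
    exact H856.Conn.mono (fun v hv => ⟨(min_le_right _ _).trans hv.1, hv.2.trans (le_max_left _ _)⟩)
      (k' n m')

theorem up_case (W : WS S θ R)
    (hw : ∀ s ∈ S, ∀ t, 0 < t → θ s < t → Wl S θ R t (ed θ h 1 t) (ed θ h s t)) :
    Up S θ := by
  have hK := W.K_nonneg
  obtain ⟨c, hc⟩ := H856.exists_lower S (fun s => -θ s)
  obtain ⟨n, hn⟩ := exists_nat_gt (max (max (-c) (W.K + θ h)) 0 / θ h)
  rw [div_lt_iff₀ D.pos] at hn
  have n1 : -c < n * θ h := lt_of_le_of_lt ((le_max_left _ _).trans (le_max_left _ _)) hn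
  have n2 : W.K + θ h < n * θ h := lt_of_le_of_lt ((le_max_right _ _).trans (le_max_left _ _)) hn
  have n3 : 0 < n * θ h := lt_of_le_of_lt (le_max_right _ _) hn
  refine H856.up_of_crit D.gs D.ch ⟨h ^ n, ?_, fun s hs => ?_⟩
  · rw [H856.IsChar.pow D.ch]; exact n3
  · have h1 := W.conn _ _ _ (hw s hs (n * θ h) n3 (by linarith [hc s hs]))
    have h2 := line_conn D 1 n (idx θ h 1 (n * θ h))
    have h3 := line_conn D s (idx θ h s (n * θ h)) n
    have i1 := idx_lt D 1 (n * θ h)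
    have i2 := le_idx D 1 (n * θ h)
    have i3 := idx_lt D s (n * θ h)
    have i4 := le_idx D s (n * θ h)
    rw [ch_one D.ch] at i1 i2
    rw [zpow_natCast, one_mul] at h2
    rw [zpow_natCast] at h3
    have hp := D.pos
    have hm1 := min_le_left 0 (θ s)
    have hm2 := min_le_right 0 (θ s)
    have e1 : θ (h ^ n) = n * θ h := H856.IsChar.pow D.ch h n
    refine H856.Conn.trans (H856.Conn.mono (fun v hv => ?_) h2)
      (H856.Conn.trans (H856.Conn.mono (fun v hv => ?_) h1) (H856.Conn.mono (fun v hv => ?_) h3))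
    · refine lt_of_lt_of_le ?_ hv.1
      rw [th_line D, ch_one D.ch, e1, lt_min_iff]
      constructor <;> linarith
    · have := (abs_le.1 hv).1
      linarith
    · refine lt_of_lt_of_le ?_ hv.1
      rw [th_line D, D.ch, e1, lt_min_iff]
      constructor <;> linarith

theorem down_case (W : WS S θ R)
    (hw : ∀ s ∈ S, ∀ t, t ≤ 0 → t ≤ θ s → Wl S θ R t (ed θ h 1 t) (ed θ h s t)) :
    Up S (-θ) := by
  have hK := W.K_nonneg
  obtain ⟨c, hc⟩ := H856.exists_lower S θ
  obtain ⟨n, hn⟩ := exists_nat_gt (max (max (-c) (W.K + θ h)) 0 / θ h)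
  rw [div_lt_iff₀ D.pos] at hn
  have n1 : -c < n * θ h := lt_of_le_of_lt ((le_max_left _ _).trans (le_max_left _ _)) hn
  have n2 : W.K + θ h < n * θ h := lt_of_le_of_lt ((le_max_right _ _).trans (le_max_left _ _)) hn
  have n3 : 0 < n * θ h := lt_of_le_of_lt (le_max_right _ _) hn
  have e1 : θ (h ^ (-(n : ℤ))) = -(n * θ h) := by
    rw [ch_zpow D.ch]; push_cast; ring
  refine H856.up_of_crit D.gs (ch_neg D.ch) ⟨h ^ (-(n : ℤ)), ?_, fun s hs => ?_⟩
  · rw [Pi.neg_apply, e1, neg_neg]; exact n3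
  · have h1 := W.conn _ _ _ (hw s hs (-(n * θ h)) (by linarith) (by linarith [hc s hs]))
    have h2 := line_conn D 1 (-(n : ℤ)) (idx θ h 1 (-(n * θ h)))
    have h3 := line_conn D s (idx θ h s (-(n * θ h))) (-(n : ℤ))
    have i1 := idx_lt D 1 (-(n * θ h))
    have i2 := le_idx D 1 (-(n * θ h))
    have i3 := idx_lt D s (-(n * θ h))
    have i4 := le_idx D s (-(n * θ h))
    rw [ch_one D.ch] at i1 i2
    rw [one_mul] at h2
    have hp := D.pos
    have hm1 := min_le_left 0 (-θ s)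
    have hm2 := min_le_right 0 (-θ s)
    refine H856.Conn.trans (H856.Conn.mono (fun v hv => ?_) h2)
      (H856.Conn.trans (H856.Conn.mono (fun v hv => ?_) h1) (H856.Conn.mono (fun v hv => ?_) h3))
    · have h4 := hv.2
      rw [th_line D, ch_one D.ch, e1, le_max_iff] at h4
      change min 0 (-θ s) < -θ v
      rcases h4 with h4 | h4 <;> linarith
    · have := (abs_le.1 hv).2
      change min 0 (-θ s) < -θ v
      linarith
    · have h4 := hv.2
      rw [th_line D, D.ch, e1, le_max_iff] at h4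
      change min 0 (-θ s) < -θ v
      rcases h4 with h4 | h4 <;> linarith

end

/-- M3b: `Up S θ` or `Up S (-θ)` from a wall system, for an amenable group. -/
theorem up_or_up {Γ : Type} [Group Γ] {S : Finset Γ} {R : ℝ} {θ : Γ → ℝ} (hF : Folner Γ)
    (hS : GenSet S) (hθ : IsChar θ) (h0 : θ ≠ 0) (W : WS S θ R) : Up S θ ∨ Up S (-θ) := by
  classical
  obtain ⟨μ, μ0, μ1, μa, μi⟩ := exists_mean hF
  obtain ⟨h, hh, hp⟩ := exists_pos hS hθ h0
  have D : Dat S θ h := ⟨hS, hθ, hh, hp⟩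
  have hK := W.K_nonneg
  -- monotonicity of the mean
  have μm : ∀ A B : Set Γ, A ⊆ B → μ A ≤ μ B := by
    intro A B hAB
    have := μa A (B \ A) disjoint_sdiff_self_right
    rw [Set.union_sdiff_cancel hAB] at this
    linarith [μ0 (B \ A)]
  have μd : ∀ A B C : Set Γ, Disjoint A B → A ⊆ C → B ⊆ C → μ A + μ B ≤ μ C := by
    intro A B C hAB hA hB
    rw [← μa A B hAB]
    exact μm _ _ (Set.union_subset hA hB)
  have μc : ∀ A : Set Γ, μ Aᶜ = 1 - μ A := by
    intro A
    have := μa A Aᶜ disjoint_compl_right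
    rw [Set.union_compl_self, μ1] at this
    linarith
  -- translation
  have tr : ∀ (g y : Γ) (t : ℝ), μ (P W h (g * y) (t + θ g)) = μ (P W h y t) := by
    intro g y t
    rw [← μi g, P_smul W hθ g y t (ed_up D y t)]
  have ln : ∀ (y : Γ) (t : ℝ) (k : ℤ), P W h (y * h ^ k) t = P W h y t := by
    intro y t k
    unfold P
    rw [ed_line D]
  have per : ∀ (t : ℝ) (n : ℕ), μ (P W h 1 (t + n * θ h)) = μ (P W h 1 t) := by
    intro t n
    have h1 := tr (h ^ (n : ℤ)) 1 t
    have h2 := ln 1 (t + θ (h ^ (n : ℤ))) n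
    rw [mul_one] at h1
    rw [one_mul] at h2
    rw [h2] at h1
    rw [ch_zpow hθ] at h1
    simpa using h1
  have le : ∀ t t', μ (P W h 1 t') ≤ μ (P W h 1 t) := by
    intro t t'
    obtain ⟨n, hn⟩ := exists_nat_gt ((t + W.K - t') / θ h)
    rw [div_lt_iff₀ hp] at hn
    rw [← per t' n]
    exact μm _ _ (nest1 D W (by linarith))
  have cst : ∀ (y : Γ) (t : ℝ), μ (P W h y t) = μ (P W h 1 0) := by
    intro y t
    have h1 := tr y 1 (t - θ y)
    rw [mul_one, sub_add_cancel] at h1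
    rw [h1]
    exact le_antisymm (le _ _) (le _ _)
  by_cases hup : ∀ s ∈ S, ∀ t, 0 < t → θ s < t → Wl S θ R t (ed θ h 1 t) (ed θ h s t)
  · exact Or.inl (up_case D W hup)
  by_cases hdn : ∀ s ∈ S, ∀ t, t ≤ 0 → t ≤ θ s → Wl S θ R t (ed θ h 1 t) (ed θ h s t)
  · exact Or.inr (down_case D W hdn)
  exfalso
  push Not at hup hdn
  obtain ⟨s, hs, t, t0, t1, hw⟩ := hup
  obtain ⟨s', hs', t', t0', t1', hw'⟩ := hdn
  -- the mean of the half-spaces is `≤ 0`
  have k1 : μ (P W h 1 0) ≤ 0 := by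
    have a1 : min (t - W.K - 1) (min 0 (θ s)) ≤ t - W.K - 1 := min_le_left _ _
    have a2 : min (t - W.K - 1) (min 0 (θ s)) ≤ 0 := (min_le_right _ _).trans (min_le_left _ _)
    have a3 : min (t - W.K - 1) (min 0 (θ s)) ≤ θ s := (min_le_right _ _).trans (min_le_right _ _)
    have := μd _ _ (P W h 1 (min (t - W.K - 1) (min 0 (θ s)))) (disj_up D W hs t0 t1 hw)
      (nest1 D W (by linarith)) (sub_up D W hs t0 t1 (by linarith) a2 a3)
    rw [cst 1 t, cst s t, cst 1 (min _ _)] at this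
    linarith
  -- the mean of the half-spaces is `≥ 1`
  have k2 : 1 ≤ μ (P W h 1 0) := by
    have a1 : t' + W.K + 1 ≤ max (t' + W.K + 1) (max 1 (θ s' + 1)) := le_max_left _ _
    have a2 : 1 ≤ max (t' + W.K + 1) (max 1 (θ s' + 1)) := (le_max_left _ _).trans (le_max_right _ _)
    have a3 : θ s' + 1 ≤ max (t' + W.K + 1) (max 1 (θ s' + 1)) :=
      (le_max_right _ _).trans (le_max_right _ _)
    have := μd _ _ (P W h 1 (max (t' + W.K + 1) (max 1 (θ s' + 1))))ᶜ
      (disj_down D W hs' t0' t1' hw')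
      (Set.compl_subset_compl.2 (nest1 D W (by linarith)))
      (Set.compl_subset_compl.2 (sub_down D W hs' t0' t1' (by linarith) (by linarith)
        (by linarith)))
    rw [μc, μc, μc, cst 1 t', cst s' t', cst 1 (max _ _)] at this
    linarith
  linarith

/-- M3: Theorem C of Bieri-Neumann-Strebel for amenable groups. -/
theorem stmtC : StmtC := by
  intro Γ _ S N θ hF hS hN hθ h0
  obtain ⟨R, ⟨W⟩⟩ := exists_ws hS hθ hN
  exact up_or_up hF hS hθ h0 W

end Vale.Agent.P260.H307
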