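import Mathlib
import Vale.Agent.P260.H493.Basic
import Vale.Agent.P260.H66.Wall
import Vale.Agent.P260.H856.O

/-!
# P260 climb, module W1: a character with finitely generated kernel is `Up` in both directions
-/

namespace Vale.Agent.P260.H307

open Vale.Agent.P260.H493 Vale.Agent.P260.H66

/-- the elements of a finitely generated kernel are joined to `1` by paths of bounded depth -/
theorem ker_conn {Γ : Type} [Group Γ] {S : Finset Γ} (hS : GenSet S) {θ : Γ → ℝ} (hθ : IsChar θ)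
    {K : Subgroup Γ} (hfg : K.FG) (hK : ∀ k ∈ K, θ k = 0) :
    ∃ c : ℝ, ∀ k ∈ K, Conn S (fun v => c ≤ θ v) 1 k := by
  classical
  obtain ⟨T, hT⟩ := hfg
  choose c hc using fun g : Γ => H856.exists_conn hS θ g
  obtain ⟨c₀, hc₀⟩ := H856.exists_lower (insert 1 T) c
  have h1 : c₀ ≤ 0 := by
    have : c 1 ≤ θ 1 := (hc 1).2
    rw [char_one hθ] at this
    exact (hc₀ 1 (Finset.mem_insert_self _ _)).trans this
  refine ⟨c₀, fun k hk => ?_⟩
  rw [← hT] at hk
  have hz : ∀ k ∈ Subgroup.closure (T : Set Γ), θ k = 0 := fun k hk => hK k (by rwa [← hT])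
  induction hk using Subgroup.closure_induction with
  | mem x hx =>
    exact conn_mono (fun v hv => (hc₀ x (Finset.mem_insert_of_mem (by simpa using hx))).trans hv)
      (hc x)
  | one => exact conn_refl (by rw [char_one hθ]; exact h1)
  | mul x y hx _ ihx ihy =>
    have := H856.Conn.mul_left (Q' := fun v => c₀ ≤ θ v) x (fun v hv => by
      rw [hθ, hz x hx, zero_add]; exact hv) ihy
    rw [mul_one] at this
    exact conn_trans ihx this
  | inv x hx ihx =>
    have := H856.Conn.mul_left (Q' := fun v => c₀ ≤ θ v) x⁻¹ (fun v hv => by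
      rw [hθ, char_inv hθ, hz x hx, neg_zero, zero_add]; exact hv) (conn_symm hS ihx)
    rwa [inv_mul_cancel, mul_one] at this

theorem up_of_ker_fg {Γ : Type} [Group Γ] {S : Finset Γ} (hS : GenSet S) {θ : Γ → ℝ}
    (hθ : IsChar θ) {K : Subgroup Γ} (hfg : K.FG) (hK : ∀ k, k ∈ K ↔ θ k = 0) {t : Γ}
    (ht : 0 < θ t) (hdec : ∀ g, ∃ a : ℤ, θ g = a * θ t) : Up S θ := by
  obtain ⟨c, hc⟩ := ker_conn hS hθ hfg fun k hk => (hK k).1 hk
  refine ⟨t, ht, fun g C => ?_⟩
  obtain ⟨a, ha⟩ := hdec g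
  obtain ⟨c', hc'⟩ := H856.exists_conn hS θ (t ^ a)
  obtain ⟨N, hN⟩ := exists_nat_gt (max (C - c) (C - c') / θ t)
  refine ⟨N, fun n hn => ?_⟩
  rw [div_lt_iff₀ ht] at hN
  have hn' : (N : ℝ) * θ t ≤ n * θ t := by
    have : (N : ℝ) ≤ n := by exact_mod_cast hn
    nlinarith
  have e1 : θ (t ^ n) = n * θ t := H856.IsChar.pow hθ t n
  have hza : θ (t ^ a) = a * θ t := by
    cases a with
    | ofNat n => simp [H856.IsChar.pow hθ]
    | negSucc n =>
      rw [zpow_negSucc, char_inv hθ, H856.IsChar.pow hθ]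
      push_cast
      ring
  have hκ : (t ^ n)⁻¹ * g * t ^ n * (t ^ a)⁻¹ ∈ K := by
    rw [hK]
    simp only [hθ _ _, char_inv hθ, ha, hza]
    ring
  have p1 := H856.Conn.mul_left (Q' := fun v => C ≤ θ v) (t ^ n) (fun v hv => by
      have := le_max_left (C - c) (C - c')
      rw [hθ, e1]; linarith) (hc _ hκ)
  have p2 := H856.Conn.mul_left (Q' := fun v => C ≤ θ v)
    (t ^ n * ((t ^ n)⁻¹ * g * t ^ n * (t ^ a)⁻¹)) (fun v hv => by
      have := le_max_right (C - c) (C - c')
      rw [hθ, hθ, (hK _).1 hκ, e1]; linarith) hc'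
  rw [mul_one] at p1 p2
  have := conn_trans p1 p2
  rwa [show t ^ n * ((t ^ n)⁻¹ * g * t ^ n * (t ^ a)⁻¹) * t ^ a = g * t ^ n by group] at this

/-- W1: if the kernel of the surjective character `ψ` is finitely generated, both directions are
`Up`. -/
theorem w1 {Γ : Type} [Group Γ] {S : Finset Γ} (hS : GenSet S) (ψ : Γ →* Multiplicative ℤ)
    (hψ : Function.Surjective ψ) (hfg : Group.FG ψ.ker) :
    Up S (fun g => (deg ψ g : ℝ)) ∧ Up S (fun g => -(deg ψ g : ℝ)) := by
  obtain ⟨t, ht⟩ := exists_deg ψ hψ 1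
  have hfg' : ψ.ker.FG := (Group.fg_iff_subgroup_fg _).1 hfg
  have hk : ∀ k, k ∈ ψ.ker ↔ deg ψ k = 0 := by
    intro k
    rw [MonoidHom.mem_ker]
    constructor
    · intro h; simp [deg, h]
    · intro h
      exact Multiplicative.toAdd.injective (by simpa [deg] using h)
  constructor
  · refine up_of_ker_fg hS (fun a b => by simp) hfg' (t := t) (fun k => ?_) (by simp [ht])
      (fun g => ⟨deg ψ g, by simp [ht]⟩)
    rw [hk]; simp
  · refine up_of_ker_fg hS (fun a b => by simp; ring) hfg' (t := t⁻¹) (fun k => ?_) (by simp [ht])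
      (fun g => ⟨-deg ψ g, by simp [ht]⟩)
    rw [hk]; simp

end Vale.Agent.P260.H307
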